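import Vale.Agent.P261Z.JM.Sys

/-!
# P261, Jucys-Murphy elements: highest weight vectors and chains of weights
-/

set_option linter.unusedSectionVars false

open Finset

namespace Vale.Agent.P261Z.JM

variable {P : Type} {d : ℕ} [Fintype P] [LinearOrder P]

/-- the number of positions in `S` with row `a` -/
def cnt (row : P → Fin d) (S : Finset P) (a : Fin d) : ℕ := (S.filter (row · = a)).card

theorem cnt_congr {row row' : P → Fin d} {S : Finset P} (h : ∀ i ∈ S, row i = row' i)
    (a : Fin d) : cnt row S a = cnt row' S a := by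
  unfold cnt
  congr 1
  exact Finset.filter_congr fun i hi => by rw [h i hi]

theorem cnt_insert (row : P → Fin d) {S : Finset P} {k : P} (hk : k ∉ S) (a : Fin d) :
    cnt row (insert k S) a = cnt row S a + if row k = a then 1 else 0 := by
  unfold cnt
  rw [Finset.filter_insert]
  split_ifs with h
  · rw [Finset.card_insert_of_notMem (fun h' => hk (Finset.mem_filter.1 h').1)]
  · rfl

/-- The step at the position `i` of a chain of dominant weights, with content `c`. -/
structure Step (row : P → Fin d) (c : ℝ) (i : P) : Prop where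
  content : c = (cnt row (Sys.lt i) (row i) : ℝ) - ((row i : ℕ) : ℝ)
  dom : ∀ a b, a < b → cnt row (insert i (Sys.lt i)) b ≤ cnt row (insert i (Sys.lt i)) a

namespace Sys

variable {W : Type} [NormedAddCommGroup W] [InnerProductSpace ℝ W] (s : Sys P d W)

theorem notMem_lt (k : P) : k ∉ lt k := fun h => lt_irrefl _ (mem_lt.1 h)

theorem E_insert {S : Finset P} {k : P} (hk : k ∉ S) (a b : Fin d) :
    s.E (insert k S) a b = s.e k a b + s.E S a b := Finset.sum_insert hk

theorem e_e (k : P) (a b c f : Fin d) (w : W) :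
    s.e k a b (s.e k c f w) = if b = c then s.e k a f w else 0 := by
  have h := LinearMap.congr_fun (s.mul k a b c f) w
  rw [Module.End.mul_apply] at h
  rw [h]
  split_ifs <;> rfl

/-- One step down: the top component of a highest weight vector. -/
theorem step_down {k : P} {μ : Fin d → ℝ} {w : W} (h : s.High (insert k (lt k)) μ w)
    (hw : w ≠ 0) {c : ℝ} (hc : s.L k w = c • w) :
    ∃ a₀ : Fin d, s.e k a₀ a₀ w ≠ 0 ∧
      s.High (lt k) (fun a => μ a - if a₀ = a then 1 else 0) (s.e k a₀ a₀ w) ∧
      c = μ a₀ - 1 - ((a₀ : ℕ) : ℝ) := by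
  classical
  have hk := notMem_lt k
  have hne : (univ.filter fun a : Fin d => s.e k a a w ≠ 0).Nonempty := by
    by_contra h0
    rw [Finset.not_nonempty_iff_eq_empty, Finset.filter_eq_empty_iff] at h0
    have h1 := LinearMap.congr_fun (s.sum k) w
    rw [LinearMap.sum_apply, Module.End.one_apply] at h1
    refine hw (h1.symm.trans (Finset.sum_eq_zero fun a ha => ?_))
    exact not_not.1 (h0 ha)
  obtain ⟨a₀, ha₀, hmax⟩ := Finset.exists_max_image _ id hne
  have hv : s.e k a₀ a₀ w ≠ 0 := (Finset.mem_filter.1 ha₀).2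
  have h1 : ∀ x c : Fin d, a₀ < c → s.e k x c w = 0 := fun x c hc => by
    have h2 : s.e k c c w = 0 := by
      by_contra h3
      exact absurd (hmax c (Finset.mem_filter.2 ⟨Finset.mem_univ _, h3⟩)) (not_le.2 hc)
    have h3 := s.e_e k x c c c w
    rw [if_pos rfl, h2, map_zero] at h3
    exact h3.symm
  have hcm : ∀ a b x y : Fin d, s.E (lt k) a b (s.e k x y w) = s.e k x y (s.E (lt k) a b w) :=
    fun a b x y => LinearMap.congr_fun (s.commute_E_e hk a b x y).eq w
  have hup : ∀ a b : Fin d, a < b → s.E (lt k) a b w = -s.e k a b w := fun a b hab => by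
    have h2 := h.up a b hab
    rw [s.E_insert hk, LinearMap.add_apply] at h2
    exact eq_neg_of_add_eq_zero_right h2
  have hwt : ∀ a : Fin d, s.E (lt k) a a w = μ a • w - s.e k a a w := fun a => by
    have h2 := h.wt a
    rw [s.E_insert hk, LinearMap.add_apply] at h2
    exact eq_sub_of_add_eq' h2
  have hH : s.High (lt k) (fun a => μ a - if a₀ = a then 1 else 0) (s.e k a₀ a₀ w) := by
    refine ⟨fun a b hab => ?_, fun a => ?_⟩
    · rw [hcm, hup a b hab, map_neg, s.e_e]
      split_ifs with h2
      · rw [h1 a₀ b (h2 ▸ hab), neg_zero]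
      · exact neg_zero
    · rw [hcm, hwt, map_sub, map_smul, s.e_e, sub_smul]
      split_ifs with h2
      · rw [← h2, one_smul]
      · rw [zero_smul]
  refine ⟨a₀, hv, hH, ?_⟩
  have h2 : c • s.e k a₀ a₀ w = ∑ a, s.E (lt k) a a₀ (s.e k a₀ a w) := by
    rw [← map_smul, ← hc, s.L_eq k]
    simp only [LinearMap.sum_apply, map_sum, Module.End.mul_apply]
    refine Finset.sum_congr rfl fun a _ => ?_
    have h3 : ∀ b, s.e k a₀ a₀ (s.E (lt k) a b (s.e k b a w)) =
        if a₀ = b then s.E (lt k) a a₀ (s.e k a₀ a w) else 0 := fun b => by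
      have h4 := LinearMap.congr_fun (s.commute_E_e hk a b a₀ a₀).eq (s.e k b a w)
      simp only [Module.End.mul_apply] at h4
      rw [← h4, s.e_e]
      split_ifs with h5
      · rw [h5]
      · exact map_zero _
    simp only [h3, Finset.sum_ite_eq, Finset.mem_univ, if_true]
  have h3 : ∀ a, s.E (lt k) a a₀ (s.e k a₀ a w) =
      ((if a = a₀ then μ a₀ - 1 else 0) - (if a < a₀ then (1 : ℝ) else 0)) • s.e k a₀ a₀ w := by
    intro a
    rcases lt_trichotomy a a₀ with h4 | h4 | h4
    · rw [hcm, hup a a₀ h4, map_neg, s.e_e, if_pos rfl, if_neg h4.ne, if_pos h4, zero_sub,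
        neg_smul, one_smul]
    · rw [h4, hH.wt a₀, if_pos rfl, if_pos rfl, if_neg (lt_irrefl _), sub_zero]
    · rw [h1 a₀ a h4, map_zero, if_neg h4.ne', if_neg (not_lt.2 h4.le), sub_zero, zero_smul]
  simp only [h3] at h2
  rw [← Finset.sum_smul] at h2
  have h4 := smul_left_injective ℝ hv h2
  rw [h4, Finset.sum_sub_distrib, Finset.sum_ite_eq', if_pos (Finset.mem_univ _),
    Finset.sum_boole]
  congr 2
  have h5 : (univ.filter fun a : Fin d => a < a₀) = Finset.Iio a₀ := by
    ext a; simp
  rw [h5, Fin.card_Iio]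

/-- **The chain of a joint eigenvector of highest weight.** -/
theorem chain [Nonempty (Fin d)] (c : P → ℝ) (S : Finset P) :
    (∀ i ∈ S, ∀ j, j < i → j ∈ S) → ∀ (μ : Fin d → ℝ) (w : W), w ≠ 0 → s.High S μ w →
      (∀ i ∈ S, s.L i w = c i • w) →
      ∃ row : P → Fin d, (∀ a, μ a = cnt row S a) ∧ ∀ i ∈ S, Step row (c i) i := by
  induction S using Finset.induction_on_max with
  | empty =>
    intro _ μ w hw h _
    refine ⟨fun _ => Classical.arbitrary _, fun a => ?_, fun i hi => absurd hi (by simp)⟩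
    have h1 := h.wt a
    simp only [E, Finset.sum_empty, LinearMap.zero_apply] at h1
    have h2 := (smul_eq_zero.1 h1.symm).resolve_right hw
    simp [cnt, h2]
  | insert k S hk ih =>
    intro hS μ w hw h hc
    have hSk : S = lt k := by
      ext j
      refine ⟨fun hj => mem_lt.2 (hk j hj), fun hj => ?_⟩
      have h1 := hS k (Finset.mem_insert_self _ _) j (mem_lt.1 hj)
      exact (Finset.mem_insert.1 h1).resolve_left (mem_lt.1 hj).ne
    subst hSk
    obtain ⟨a₀, hv, hH, hck⟩ := s.step_down h hw (hc k (Finset.mem_insert_self _ _))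
    obtain ⟨row, hr1, hr2⟩ := ih (lower_lt k) _ _ hv hH (fun i hi => by
      have h1 := LinearMap.congr_fun (s.commute_L_e (mem_lt.1 hi) a₀ a₀).eq w
      simp only [Module.End.mul_apply] at h1
      rw [h1, hc i (Finset.mem_insert_of_mem hi), map_smul])
    have hup : ∀ i, i < k → Function.update row k a₀ i = row i := fun i hi =>
      Function.update_of_ne hi.ne _ _
    have hcnt : ∀ a, cnt (Function.update row k a₀) (lt k) a = cnt row (lt k) a :=
      cnt_congr fun i hi => hup i (mem_lt.1 hi)
    have hμ : ∀ a, μ a = cnt (Function.update row k a₀) (insert k (lt k)) a := fun a => by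
      rw [cnt_insert _ (notMem_lt k), hcnt, Function.update_self]
      have h1 := hr1 a
      push_cast
      split_ifs at h1 ⊢ <;> linarith
    refine ⟨Function.update row k a₀, hμ, fun i hi => ?_⟩
    rcases Finset.mem_insert.1 hi with h1 | h1
    · subst h1
      refine ⟨?_, fun a b hab => ?_⟩
      · rw [Function.update_self, hcnt, hck, ← hr1 a₀, if_pos rfl]
      · have h2 := High.dom s h hw hab
        rw [hμ, hμ] at h2
        exact_mod_cast h2
    · have hik := mem_lt.1 h1
      have h2 : ∀ a, cnt (Function.update row k a₀) (lt i) a = cnt row (lt i) a :=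
        cnt_congr fun j hj => hup j ((mem_lt.1 hj).trans hik)
      have h3 : ∀ a, cnt (Function.update row k a₀) (insert i (lt i)) a =
          cnt row (insert i (lt i)) a :=
        cnt_congr fun j hj => hup j (by
          rcases Finset.mem_insert.1 hj with h4 | h4
          · exact h4 ▸ hik
          · exact (mem_lt.1 h4).trans hik)
      refine ⟨?_, fun a b hab => ?_⟩
      · rw [hup i hik, h2]
        exact (hr2 i h1).content
      · rw [h3, h3]
        exact (hr2 i h1).dom a b hab

variable [FiniteDimensional ℝ W]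

theorem commute_E_diag (S : Finset P) (a b : Fin d) : Commute (s.E S a a) (s.E S b b) := by
  have h := s.bracket S a a b b
  by_cases hab : a = b
  · rw [hab]
  · rw [if_neg hab, if_neg (Ne.symm hab), sub_zero] at h
    exact sub_eq_zero.1 h

/-- A non-zero invariant subspace contains a highest weight vector. -/
theorem exists_high (S : Finset P) (U : Submodule ℝ W)
    (hU : ∀ a b, ∀ v ∈ U, s.E S a b v ∈ U) {u : W} (hu : u ∈ U) (hu0 : u ≠ 0) :
    ∃ w ∈ U, w ≠ 0 ∧ ∃ μ, s.High S μ w := by
  classical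
  let H : Module.End ℝ W := ∑ a : Fin d, ((a : ℕ) : ℝ) • s.E S a a
  have hsym : ∀ a, (s.E S a a).IsSymmetric := fun a x y => s.adj_E S a a x y
  have hH : ∀ (w : W) (χ : Fin d → ℝ), (∀ a, s.E S a a w = χ a • w) →
      H w = (∑ a : Fin d, ((a : ℕ) : ℝ) * χ a) • w := fun w χ h => by
    simp only [H, LinearMap.sum_apply, LinearMap.smul_apply, h, Finset.sum_smul, mul_smul]
  let A : Set ℝ := {t | ∃ w ∈ U, w ≠ 0 ∧ ∃ χ : Fin d → ℝ, (∀ a, s.E S a a w = χ a • w) ∧
    t = ∑ a : Fin d, ((a : ℕ) : ℝ) * χ a}
  have hfin : A.Finite := by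
    refine (Module.End.finite_hasEigenvalue H).subset ?_
    rintro t ⟨w, -, hw, χ, h1, rfl⟩
    exact Module.End.hasEigenvalue_of_hasEigenvector
      ⟨Module.End.mem_eigenspace_iff.2 (hH w χ h1), hw⟩
  have hne : A.Nonempty := by
    obtain ⟨w, h1, h2, χ, h3⟩ := exists_joint (fun a => s.E S a a) hsym (s.commute_E_diag S) U
      (fun a => hU a a) hu hu0
    exact ⟨_, w, h1, h2, χ, h3, rfl⟩
  obtain ⟨t, ⟨w, hwU, hw, χ, hχ, ht⟩, hmin⟩ := Set.exists_min_image A id hfin hne
  refine ⟨w, hwU, hw, χ, fun a b hab => ?_, hχ⟩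
  by_contra h0
  have h1 : ∀ x, s.E S x x (s.E S a b w) =
      (χ x + ((if x = a then 1 else 0) - (if b = x then 1 else 0))) • s.E S a b w := fun x => by
    have h2 := LinearMap.congr_fun (s.bracket S x x a b) w
    simp only [LinearMap.sub_apply, Module.End.mul_apply, hχ, map_smul] at h2
    rw [add_smul, ← sub_eq_iff_eq_add', h2, sub_smul]
    congr 1
    · split_ifs with h3
      · rw [h3, one_smul]
      · rw [zero_smul]; rfl
    · split_ifs with h3
      · rw [h3, one_smul]
      · rw [zero_smul]; rfl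
  have h2 := hmin _ ⟨s.E S a b w, hU a b w hwU, h0, _, h1, rfl⟩
  simp only [id, mul_add, mul_sub, Finset.sum_add_distrib, Finset.sum_sub_distrib, mul_ite,
    mul_one, mul_zero, Finset.sum_ite_eq, Finset.sum_ite_eq', Finset.mem_univ, if_true] at h2
  have h3 : ((a : ℕ) : ℝ) < ((b : ℕ) : ℝ) := by exact_mod_cast hab
  linarith

/-- Every joint eigenvalue of the Jucys-Murphy operators comes from a chain. -/
theorem chain_of_joint [Nonempty (Fin d)] (c : P → ℝ) {w : W} (hw : w ≠ 0)
    (hc : ∀ i, s.L i w = c i • w) : ∃ row : P → Fin d, ∀ i, Step row (c i) i := by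
  let U : Submodule ℝ W := ⨅ i, Module.End.eigenspace (s.L i) (c i)
  have hmem : ∀ v, v ∈ U ↔ ∀ i, s.L i v = c i • v := fun v => by
    simp only [U, Submodule.mem_iInf, Module.End.mem_eigenspace_iff]
  obtain ⟨v, hv, hv0, μ, hμ⟩ := s.exists_high univ U (fun a b v hv => (hmem _).2 fun i => by
    have h1 := LinearMap.congr_fun (s.commute_L_E (S := univ) (fun _ _ _ _ => Finset.mem_univ _)
      (Finset.mem_univ i) a b).eq v
    simp only [Module.End.mul_apply] at h1
    rw [h1, (hmem v).1 hv i, map_smul]) ((hmem w).2 hc) hw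
  obtain ⟨row, -, h⟩ := s.chain c univ (fun _ _ _ _ => Finset.mem_univ _) μ v hv0 hμ
    (fun i _ => (hmem v).1 hv i)
  exact ⟨row, fun i => h i (Finset.mem_univ i)⟩

end Sys

end Vale.Agent.P261Z.JM
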