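import Vale.Agent.P261Z.JM.Chain

/-!
# P261, Jucys-Murphy elements: the residue sequence which forces many rows

The positions are grouped into blocks `b < B` of length `b / q + 1`, where `q = p - 1`; all
positions of the block `b` get the residue `b` modulo `p`.
-/

set_option linter.unusedSectionVars false

open Finset

namespace Vale.Agent.P261Z.JM

/-- The positions. -/
def Pos (q B : ℕ) : Type := {x : ℕ ×ₗ ℕ // (ofLex x).1 < B ∧ (ofLex x).2 ≤ (ofLex x).1 / q}

namespace Pos

variable {q B : ℕ}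

noncomputable instance : LinearOrder (Pos q B) := inferInstanceAs (LinearOrder {_x : ℕ ×ₗ ℕ // _})

/-- the block of a position -/
def blk (i : Pos q B) : ℕ := (ofLex i.1).1

/-- the place of a position in its block -/
def pl (i : Pos q B) : ℕ := (ofLex i.1).2

theorem blk_lt (i : Pos q B) : i.blk < B := i.2.1

theorem pl_le (i : Pos q B) : i.pl ≤ i.blk / q := i.2.2

theorem ext' {i j : Pos q B} (h1 : i.blk = j.blk) (h2 : i.pl = j.pl) : i = j :=
  Subtype.ext (ofLex.injective (Prod.ext h1 h2))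

theorem lt_iff {i j : Pos q B} : i < j ↔ i.blk < j.blk ∨ i.blk = j.blk ∧ i.pl < j.pl :=
  Prod.Lex.lt_iff (x := i.1) (y := j.1)

instance : Finite (Pos q B) :=
  Finite.of_injective (fun i : Pos q B => ((⟨i.blk, i.blk_lt⟩ : Fin B),
    (⟨i.pl, lt_of_le_of_lt (i.pl_le.trans (Nat.div_le_self _ _)) i.blk_lt⟩ : Fin B)))
    fun _ _ h => ext' (congrArg (fun x => x.1.1) h) (congrArg (fun x => x.2.1) h)

noncomputable instance : Fintype (Pos q B) := Fintype.ofFinite _

/-- the positions of a block -/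
def mk' {b : ℕ} (hb : b < B) (t : Fin (b / q + 1)) : Pos q B :=
  ⟨toLex (b, t.1), hb, Nat.le_of_lt_succ t.2⟩

theorem blk_mk' {b : ℕ} (hb : b < B) (t : Fin (b / q + 1)) : (mk' hb t).blk = b := rfl

theorem mk'_injective {b : ℕ} (hb : b < B) : Function.Injective (mk' (q := q) hb) :=
  fun _ _ h => Fin.ext (congrArg pl h)

theorem exists_mk' {b : ℕ} (hb : b < B) {i : Pos q B} (hi : i.blk = b) : ∃ t, mk' hb t = i :=
  ⟨⟨i.pl, Nat.lt_succ_of_le (hi ▸ i.pl_le)⟩, ext' hi.symm rfl⟩

/-- the positions in the blocks before `b` -/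
noncomputable def bef (q B b : ℕ) : Finset (Pos q B) := univ.filter (·.blk < b)

/-- the block `b` -/
noncomputable def blo (q B b : ℕ) : Finset (Pos q B) := univ.filter (·.blk = b)

theorem mem_bef {b : ℕ} {i : Pos q B} : i ∈ bef q B b ↔ i.blk < b := by simp [bef]

theorem mem_blo {b : ℕ} {i : Pos q B} : i ∈ blo q B b ↔ i.blk = b := by simp [blo]

theorem blk_mono {i j : Pos q B} (h : i < j) : i.blk ≤ j.blk := by
  rcases lt_iff.1 h with h | h
  · exact h.le
  · exact h.1.le

theorem lower_bef (b : ℕ) : ∀ i ∈ bef q B b, ∀ j, j < i → j ∈ bef q B b :=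
  fun _ hi _ hj => mem_bef.2 (lt_of_le_of_lt (blk_mono hj) (mem_bef.1 hi))

theorem bef_succ (b : ℕ) : bef q B (b + 1) = bef q B b ∪ blo q B b := by
  ext i
  simp only [Finset.mem_union, mem_bef, mem_blo]
  omega

theorem disj (b : ℕ) : Disjoint (bef q B b) (blo q B b) :=
  Finset.disjoint_left.2 fun _ h1 h2 => (mem_bef.1 h1).ne (mem_blo.1 h2)

theorem blo_eq {b : ℕ} (hb : b < B) :
    blo q B b = univ.map ⟨mk' hb, mk'_injective hb⟩ := by
  ext i
  simp only [mem_blo, Finset.mem_map, Finset.mem_univ, true_and, Function.Embedding.coeFn_mk]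
  exact ⟨exists_mk' hb, fun ⟨t, ht⟩ => ht ▸ rfl⟩

theorem bef_top : bef q B B = univ := by
  ext i
  simp [mem_bef, i.blk_lt]

end Pos

open Pos

variable {q B d : ℕ}

theorem cnt_union {P : Type} [DecidableEq P] (row : P → Fin d) {S S' : Finset P}
    (h : Disjoint S S') (a : Fin d) : cnt row (S ∪ S') a = cnt row S a + cnt row S' a := by
  unfold cnt
  rw [Finset.filter_union, Finset.card_union_of_disjoint (Finset.disjoint_filter_filter h)]

/-- The row of `i` is one of the first rows and differs from the earlier rows of the block. -/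
def Good (row : Pos q B → Fin d) (i : Pos q B) : Prop :=
  (row i : ℕ) ≤ i.blk / q ∧ ∀ j, j < i → j.blk = i.blk → row j ≠ row i

theorem inj_of_good {row : Pos q B → Fin d} {b : ℕ} (hb : b < B)
    (h : ∀ i, i.blk = b → Good row i) : Function.Injective fun t => row (mk' hb t) := by
  intro t t' htt
  rcases lt_trichotomy t t' with h1 | h1 | h1
  · exact absurd htt ((h _ (blk_mk' hb t')).2 _ (lt_iff.2 (Or.inr ⟨rfl, h1⟩)) rfl)
  · exact h1
  · exact absurd htt.symm ((h _ (blk_mk' hb t)).2 _ (lt_iff.2 (Or.inr ⟨rfl, h1⟩)) rfl)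

theorem cnt_blo {row : Pos q B → Fin d} {b : ℕ} (hb : b < B) (h : ∀ i, i.blk = b → Good row i)
    (a : Fin d) : cnt row (blo q B b) a = if (a : ℕ) ≤ b / q then 1 else 0 := by
  have hinj := inj_of_good hb h
  let f : Fin (b / q + 1) → Fin (b / q + 1) := fun t =>
    ⟨row (mk' hb t), Nat.lt_succ_of_le (h _ (blk_mk' hb t)).1⟩
  have hf : Function.Injective f := fun t t' htt => hinj (Fin.ext (congrArg Fin.val htt :))
  unfold cnt
  split_ifs with ha
  · obtain ⟨t, ht⟩ := Finite.surjective_of_injective hf ⟨a, Nat.lt_succ_of_le ha⟩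
    have h1 : row (mk' hb t) = a := Fin.ext (congrArg Fin.val ht :)
    rw [Finset.card_eq_one]
    refine ⟨mk' hb t, Finset.eq_singleton_iff_unique_mem.2
      ⟨Finset.mem_filter.2 ⟨mem_blo.2 rfl, h1⟩, fun j hj => ?_⟩⟩
    obtain ⟨h2, h3⟩ := Finset.mem_filter.1 hj
    obtain ⟨t', rfl⟩ := exists_mk' hb (mem_blo.1 h2)
    rw [hinj (h3.trans h1.symm)]
  · rw [Finset.card_eq_zero, Finset.filter_eq_empty_iff]
    intro j hj h1
    have h2 := (h j (mem_blo.1 hj)).1
    rw [h1, mem_blo.1 hj] at h2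
    exact ha h2

theorem cnt_bef (hq : 0 < q) {row : Pos q B → Fin d} (a : Fin d) : ∀ b, b ≤ B →
    (∀ i, i.blk < b → Good row i) → cnt row (bef q B b) a = b - a * q
  | 0, _, _ => by
    have : bef q B 0 = ∅ := by ext i; simp [mem_bef]
    simp [this, cnt]
  | b + 1, hb, h => by
    rw [bef_succ, cnt_union _ (disj b), cnt_bef hq a b (by omega) (fun i hi => h i (by omega)),
      cnt_blo (by omega) (fun i hi => h i (by omega))]
    simp only [Nat.le_div_iff_mul_le hq]
    split_ifs <;> omega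

theorem lt_eq (i : Pos q B) :
    Sys.lt i = bef q B i.blk ∪ (Sys.lt i).filter (·.blk = i.blk) := by
  ext j
  simp only [Finset.mem_union, mem_bef, Finset.mem_filter, Sys.mem_lt]
  constructor
  · intro h
    rcases lt_iff.1 h with h1 | h1
    · exact Or.inl h1
    · exact Or.inr ⟨h, h1.1⟩
  · rintro (h | h)
    · exact lt_iff.2 (Or.inl h)
    · exact h.1

theorem cnt_lt (row : Pos q B → Fin d) (i : Pos q B) (a : Fin d) :
    cnt row (Sys.lt i) a = cnt row (bef q B i.blk) a +
      cnt row ((Sys.lt i).filter (·.blk = i.blk)) a := by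
  rw [← cnt_union, ← lt_eq]
  exact Finset.disjoint_left.2 fun j h1 h2 => (mem_bef.1 h1).ne (Finset.mem_filter.1 h2).2

/-- `c` is an integer congruent to `b` modulo `p`. -/
def Res (p : ℕ) (c : ℝ) (b : ℕ) : Prop := ∃ z : ℤ, c = z ∧ (p : ℤ) ∣ z - b

theorem good_step (hq : 0 < q) {row : Pos q B → Fin d} {c : ℝ} {i : Pos q B}
    (ih : ∀ j, j < i → Good row j) (hs : Step row c i) (hr : Res (q + 1) c i.blk) :
    Good row i := by
  obtain ⟨z, hz, hdvd⟩ := hr
  have hbef : ∀ a : Fin d, cnt row (bef q B i.blk) a = i.blk - a * q := fun a =>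
    cnt_bef hq a _ i.blk_lt.le fun j hj => ih j (lt_iff.2 (Or.inl hj))
  have h0 : ∀ a : Fin d, i.blk / q < a → cnt row (Sys.lt i) a = 0 := fun a ha => by
    rw [cnt_lt, hbef]
    have h1 : i.blk < a * q := (Nat.div_lt_iff_lt_mul hq).1 ha
    have h2 : cnt row ((Sys.lt i).filter (·.blk = i.blk)) a = 0 := by
      unfold cnt
      rw [Finset.card_eq_zero, Finset.filter_eq_empty_iff]
      intro j hj h3
      obtain ⟨h4, h5⟩ := Finset.mem_filter.1 hj
      have h6 := (ih j (Sys.mem_lt.1 h4)).1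
      rw [h3, h5] at h6
      omega
    omega
  have hc : z = (cnt row (Sys.lt i) (row i) : ℤ) - ((row i : ℕ) : ℤ) := by
    have h1 := hs.content
    rw [hz] at h1
    exact_mod_cast h1
  have hle : (row i : ℕ) ≤ i.blk / q := by
    by_contra h1
    have h2 : i.blk / q < row i := not_le.1 h1
    rcases Nat.lt_or_ge (i.blk / q + 1) (row i) with h3 | h3
    · let a' : Fin d := ⟨i.blk / q + 1, h3.trans (row i).2⟩
      have h4 := hs.dom a' (row i) h3
      rw [cnt_insert _ (Sys.notMem_lt i), cnt_insert _ (Sys.notMem_lt i), if_pos rfl,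
        h0 a' (Nat.lt_succ_self _), if_neg (fun h5 => by
          have h6 : (row i : ℕ) = i.blk / q + 1 := congrArg Fin.val h5
          omega)] at h4
      omega
    · have h4 : (row i : ℕ) = i.blk / q + 1 := by omega
      rw [h0 _ h2, h4] at hc
      have h5 := Nat.div_add_mod i.blk q
      have h6 := Nat.mod_lt i.blk hq
      have h7 : ((q + 1 : ℕ) : ℤ) ∣ ((i.blk % q + 1 : ℕ) : ℤ) := by
        have h8 : ((i.blk % q + 1 : ℕ) : ℤ) =
            -(z - i.blk) - ((q + 1 : ℕ) : ℤ) * ((i.blk / q : ℕ) : ℤ) := by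
          have h9 : (i.blk : ℤ) = (q : ℤ) * ((i.blk / q : ℕ) : ℤ) + ((i.blk % q : ℕ) : ℤ) := by
            exact_mod_cast h5.symm
          rw [hc]
          simp only [Nat.cast_add, Nat.cast_one, Nat.cast_zero]
          linear_combination -h9
        rw [h8]
        exact dvd_sub (dvd_neg.2 hdvd) (Dvd.intro _ rfl)
      have h9 := Nat.le_of_dvd (Nat.succ_pos _) (Int.natCast_dvd_natCast.1 h7)
      omega
  refine ⟨hle, fun j hj hjb hrow => ?_⟩
  have h1 : cnt row ((Sys.lt i).filter (·.blk = i.blk)) (row i) = 1 := by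
    unfold cnt
    rw [Finset.card_eq_one]
    refine ⟨j, Finset.eq_singleton_iff_unique_mem.2 ⟨Finset.mem_filter.2
      ⟨Finset.mem_filter.2 ⟨Sys.mem_lt.2 hj, hjb⟩, hrow⟩, fun l hl => ?_⟩⟩
    obtain ⟨h2, h3⟩ := Finset.mem_filter.1 hl
    obtain ⟨h4, h5⟩ := Finset.mem_filter.1 h2
    rcases lt_trichotomy l j with h6 | h6 | h6
    · exact absurd (h3.trans hrow.symm) ((ih j hj).2 l h6 (h5.trans hjb.symm))
    · exact h6
    · exact absurd (hrow.trans h3.symm) ((ih l (Sys.mem_lt.1 h4)).2 j h6 (hjb.trans h5.symm))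
  rw [cnt_lt, hbef, h1] at hc
  have h2 : (row i : ℕ) * q ≤ i.blk := (Nat.le_div_iff_mul_le hq).1 hle
  have h3 : ((q + 1 : ℕ) : ℤ) ∣ ((1 : ℕ) : ℤ) := by
    have h4 : ((1 : ℕ) : ℤ) = (z - i.blk) + ((q + 1 : ℕ) : ℤ) * ((row i : ℕ) : ℤ) := by
      rw [hc]
      simp only [Nat.cast_add, Nat.cast_one, Nat.cast_sub h2, Nat.cast_mul]
      ring
    rw [h4]
    exact dvd_add hdvd (Dvd.intro _ rfl)
  have h4 := Nat.le_of_dvd Nat.one_pos (Int.natCast_dvd_natCast.1 h3)
  omega

/-- A chain with the residue sequence fills the blocks. -/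
theorem good_of_res (hq : 0 < q) {row : Pos q B → Fin d} {c : Pos q B → ℝ} {b : ℕ}
    (h : ∀ i, i.blk < b → Step row (c i) i ∧ Res (q + 1) (c i) i.blk) (i : Pos q B) :
    i.blk < b → Good row i := by
  induction i using WellFoundedLT.induction with
  | ind i ih =>
    intro hi
    exact good_step hq (fun j hj => ih j hj (lt_of_le_of_lt (blk_mono hj) hi)) (h i hi).1
      (h i hi).2

/-- Conversely, a chain which passes through the right weights has the residue sequence. -/
theorem res_of_cnt (hq : 0 < q) {row : Pos q B → Fin d} {c : ℝ} {i : Pos q B}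
    (hg : ∀ j, j.blk < i.blk → Good row j)
    (hw : ∀ a : Fin d, cnt row (bef q B (i.blk + 1)) a = i.blk + 1 - a * q) (hs : Step row c i) :
    Res (q + 1) c i.blk := by
  have hbef : ∀ a : Fin d, cnt row (bef q B i.blk) a = i.blk - a * q := fun a =>
    cnt_bef hq a _ i.blk_lt.le hg
  have h1 := hw (row i)
  rw [bef_succ, cnt_union _ (disj _), hbef] at h1
  have h2 : cnt row ((Sys.lt i).filter (·.blk = i.blk)) (row i) + 1 ≤
      cnt row (blo q B i.blk) (row i) := by
    have h3 := cnt_insert row (S := (Sys.lt i).filter (·.blk = i.blk)) (k := i)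
      (fun h => Sys.notMem_lt i (Finset.mem_filter.1 h).1) (row i)
    rw [if_pos rfl] at h3
    rw [← h3]
    refine Finset.card_le_card (Finset.filter_subset_filter _ fun j hj => ?_)
    rcases Finset.mem_insert.1 hj with h4 | h4
    · exact mem_blo.2 (h4 ▸ rfl)
    · exact mem_blo.2 (Finset.mem_filter.1 h4).2
  have h3 : cnt row ((Sys.lt i).filter (·.blk = i.blk)) (row i) = 0 := by omega
  have h4 : (row i : ℕ) * q ≤ i.blk := by omega
  refine ⟨(i.blk : ℤ) - ((q + 1 : ℕ) : ℤ) * ((row i : ℕ) : ℤ), ?_, ?_⟩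
  · rw [hs.content, cnt_lt, hbef, h3]
    simp only [Nat.cast_add, Nat.cast_one, Nat.cast_sub h4, Nat.cast_mul, Int.cast_sub,
      Int.cast_mul, Int.cast_natCast, Int.cast_add, Int.cast_one, Nat.cast_zero]
    ring
  · rw [sub_sub_cancel_left]
    exact dvd_neg.2 (Dvd.intro _ rfl)

end Vale.Agent.P261Z.JM
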