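import Vale.Agent.P261Z.JM.Model
import Mathlib.LinearAlgebra.Trace
import Mathlib.Algebra.Polynomial.AlgebraMap
import Mathlib.Data.Int.Interval
import Mathlib.Data.Nat.Prime.Int
import Mathlib.RingTheory.Int.Basic

/-!
# P261, Jucys-Murphy elements: the quasi-idempotent

`exists_idem` : for a prime `p` and `M ≥ 1` there is `ε` in the integral group ring of a symmetric
group with `ε * ε = m • ε`, `m` prime to `p`, which kills the tensor power of a space of dimension
less than `M` and is not zero modulo `p` on the tensor power of a space of dimension `M`.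
-/

set_option linter.unusedSectionVars false

open Finset Polynomial

namespace Vale.Agent.P261Z.JM

/-- The matrix of `ε` on the tensor power with basis the words `P → ι`. -/
def mat {P ι : Type} [Fintype P] [DecidableEq P] [DecidableEq ι]
    (ε : MonoidAlgebra ℤ (Equiv.Perm P)) (a b : P → ι) : ℤ :=
  ∑ σ : Equiv.Perm P, if a ∘ σ = b then ε.coeff σ else 0

section gen

variable {P : Type} [Fintype P] [LinearOrder P] {d : ℕ}

theorem rep_single (ε : MonoidAlgebra ℤ (Equiv.Perm P)) (a b : P → Fin d) :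
    rep P d ε (WithLp.toLp 2 (Pi.single b 1)) a = mat ε a b := by
  rw [rep_apply, mat]
  push_cast
  refine Finset.sum_congr rfl fun σ _ => ?_
  change (ε.coeff σ : ℝ) * (Pi.single b 1 : (P → Fin d) → ℝ) (a ∘ σ) = _
  rw [Pi.single_apply, mul_ite, mul_one, mul_zero]

theorem rep_apply_mat (ε : MonoidAlgebra ℤ (Equiv.Perm P)) (w : TS P d) (a : P → Fin d) :
    rep P d ε w a = ∑ b, (mat ε a b : ℝ) * w b := by
  rw [rep_apply]
  simp only [mat]
  push_cast
  simp only [Finset.sum_mul, ite_mul, zero_mul]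
  rw [Finset.sum_comm]
  simp only [Finset.sum_ite_eq, Finset.mem_univ, if_true]

theorem rep_aeval {x : MonoidAlgebra ℤ (Equiv.Perm P)} {w : TS P d} {z : ℤ}
    (h : rep P d x w = (z : ℝ) • w) (f : ℤ[X]) :
    rep P d (aeval x f) w = ((f.eval z : ℤ) : ℝ) • w := by
  induction f using Polynomial.induction_on with
  | C a =>
    rw [aeval_C, AlgHom.commutes, eval_C, Module.algebraMap_end_apply, Int.cast_smul_eq_zsmul]
  | add f g hf hg =>
    rw [map_add, map_add, LinearMap.add_apply, hf, hg, eval_add, Int.cast_add, add_smul]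
  | monomial n a ih =>
    rw [pow_succ, ← mul_assoc, map_mul, map_mul, Module.End.mul_apply, aeval_X, h, map_smul, ih,
      eval_mul (q := X), eval_X, Int.cast_mul, smul_smul, mul_comm]

theorem rep_prod {I : Type} (x : I → MonoidAlgebra ℤ (Equiv.Perm P)) {w : TS P d} (z : I → ℤ)
    (h : ∀ i, rep P d (x i) w = (z i : ℝ) • w) (l : List I) :
    rep P d (l.map x).prod w = (((l.map z).prod : ℤ) : ℝ) • w := by
  induction l with
  | nil => simp
  | cons i l ih =>
    rw [List.map_cons, List.prod_cons, map_mul, Module.End.mul_apply, ih, map_smul, h,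
      List.map_cons, List.prod_cons, Int.cast_mul, smul_smul, mul_comm]

/-- the Jucys-Murphy element -/
noncomputable def jm (k : P) : MonoidAlgebra ℤ (Equiv.Perm P) :=
  ∑ i ∈ Sys.lt k, MonoidAlgebra.of ℤ _ (Equiv.swap i k)

theorem rep_jm (k : P) : rep P d (jm k) = (sys P d).L k := by
  rw [jm, map_sum, Sys.L]
  exact Finset.sum_congr rfl fun i hi => by rw [rep_of, sw_eq (Sys.mem_lt.1 hi).ne]

theorem exists_int [Nonempty (Fin d)] {N : ℕ} (h1 : Fintype.card P ≤ N) (h2 : d ≤ N)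
    {c : P → ℝ} {w : TS P d} (hw : w ≠ 0) (hc : ∀ i, (sys P d).L i w = c i • w) :
    ∃ z : P → ℤ, ∀ i, c i = z i ∧ z i ∈ Finset.Icc (-(N : ℤ)) N := by
  obtain ⟨row, hr⟩ := (sys P d).chain_of_joint c hw hc
  refine ⟨fun i => (cnt row (Sys.lt i) (row i) : ℤ) - ((row i : ℕ) : ℤ), fun i => ⟨?_, ?_⟩⟩
  · rw [(hr i).content]
    push_cast
    rfl
  · have h3 : cnt row (Sys.lt i) (row i) ≤ Fintype.card P := Finset.card_le_univ _
    have h4 := (row i).2
    rw [Finset.mem_Icc]
    beta_reduce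
    omega

variable (p N : ℕ) (ρ : P → ℕ)

/-- the polynomial which kills the other residues -/
noncomputable def gp (b : ℕ) : ℤ[X] :=
  ∏ z ∈ (Finset.Icc (-(N : ℤ)) N).filter (fun z => ¬ (p : ℤ) ∣ z - b), (X - C z)

/-- the eigenvalue of the product -/
noncomputable def ev (z : P → ℤ) : ℤ := ∏ k, (gp p N (ρ k)).eval (z k)

/-- the non-zero eigenvalues of the product -/
noncomputable def vals : Finset ℤ :=
  (Fintype.piFinset fun k => (Finset.Icc (-(N : ℤ)) N).filter (fun z => (p : ℤ) ∣ z - ρ k)).image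
    (ev p N ρ)

/-- the scalar -/
noncomputable def sc : ℤ := ∏ γ ∈ vals p N ρ, -γ

/-- the quasi-idempotent -/
noncomputable def idem : MonoidAlgebra ℤ (Equiv.Perm P) :=
  aeval ((univ : Finset P).toList.map fun k => aeval (jm k) (gp p N (ρ k))).prod
    (C (sc p N ρ) - ∏ γ ∈ vals p N ρ, (X - C γ))

theorem not_dvd_sc (hp : p.Prime) : ¬ (p : ℤ) ∣ sc p N ρ := by
  have hp' : Prime (p : ℤ) := Nat.prime_iff_prime_int.1 hp
  rw [sc, hp'.dvd_finsetProd_iff]
  rintro ⟨γ, hγ, h⟩
  obtain ⟨z, hz, rfl⟩ := Finset.mem_image.1 hγ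
  rw [dvd_neg, ev, hp'.dvd_finsetProd_iff] at h
  obtain ⟨k, -, h⟩ := h
  rw [gp, eval_prod, hp'.dvd_finsetProd_iff] at h
  obtain ⟨y, hy, h⟩ := h
  rw [eval_sub, eval_X, eval_C] at h
  have h1 := (Finset.mem_filter.1 (Fintype.mem_piFinset.1 hz k)).2
  refine (Finset.mem_filter.1 hy).2 ?_
  have h2 : y - ρ k = (z k - ρ k) - (z k - y) := by ring
  rw [h2]
  exact dvd_sub h1 h

variable {p N ρ}

theorem rep_idem {w : TS P d} {z : P → ℤ} (hz : ∀ i, z i ∈ Finset.Icc (-(N : ℤ)) N)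
    (hc : ∀ i, (sys P d).L i w = (z i : ℝ) • w) :
    rep P d (idem p N ρ) w =
      (if ∀ i, (p : ℤ) ∣ z i - ρ i then ((sc p N ρ : ℤ) : ℝ) else 0) • w := by
  have h1 := rep_prod (fun k => aeval (jm k) (gp p N (ρ k)))
    (fun k => (gp p N (ρ k)).eval (z k)) (w := w)
    (fun k => rep_aeval (by rw [rep_jm]; exact hc k) _) (univ : Finset P).toList
  rw [Finset.prod_map_toList] at h1
  rw [idem, rep_aeval h1]
  congr 1
  rw [eval_sub, eval_C, eval_prod]
  simp only [eval_sub, eval_X, eval_C]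
  split_ifs with h
  · have h2 : ev p N ρ z ∈ vals p N ρ :=
      Finset.mem_image_of_mem _ (Fintype.mem_piFinset.2 fun k => Finset.mem_filter.2 ⟨hz k, h k⟩)
    have h3 : ∏ γ ∈ vals p N ρ, (∏ k, (gp p N (ρ k)).eval (z k) - γ) = 0 :=
      Finset.prod_eq_zero h2 (sub_self _)
    rw [h3, sub_zero]
  · obtain ⟨k, hk⟩ := not_forall.1 h
    have h2 : ∏ k, (gp p N (ρ k)).eval (z k) = 0 := by
      refine Finset.prod_eq_zero (Finset.mem_univ k) ?_
      rw [gp, eval_prod]
      refine Finset.prod_eq_zero (Finset.mem_filter.2 ⟨hz k, hk⟩) ?_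
      rw [eval_sub, eval_X, eval_C, sub_self]
    simp only [h2, zero_sub, sc, sub_self, Int.cast_zero]

theorem rep_idem_sq [Nonempty (Fin d)] (h1 : Fintype.card P ≤ N) (h2 : d ≤ N) :
    rep P d (idem p N ρ * idem p N ρ - sc p N ρ • idem p N ρ) = 0 := by
  refine eq_zero_of_joint (sys P d).L (sys P d).symm_L (sys P d).commute_L_L _ fun w c hw hc => ?_
  obtain ⟨z, hz⟩ := exists_int h1 h2 hw hc
  have h3 := rep_idem (p := p) (ρ := ρ) (fun i => (hz i).2) (fun i => (hz i).1 ▸ hc i)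
  rw [map_sub, map_mul, map_zsmul, LinearMap.sub_apply, Module.End.mul_apply, LinearMap.smul_apply,
    h3, map_smul, h3, ← Int.cast_smul_eq_zsmul ℝ]
  split_ifs <;> simp

theorem eq_zero_of_rep {x : MonoidAlgebra ℤ (Equiv.Perm P)}
    (h : rep P (Fintype.card P) x = 0) : x = 0 := by
  ext τ
  have h1 := rep_single x (Fintype.equivFin P) (Fintype.equivFin P ∘ τ)
  rw [h] at h1
  have h2 : mat x (Fintype.equivFin P) (Fintype.equivFin P ∘ τ) = x.coeff τ := by
    rw [mat, Finset.sum_eq_single τ, if_pos rfl]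
    · intro σ _ hσ
      refine if_neg fun h3 => hσ (Equiv.ext fun i => (Fintype.equivFin P).injective (congrFun h3 i))
    · exact fun h3 => absurd (Finset.mem_univ τ) h3
  rw [h2] at h1
  have h3 : ((x.coeff τ : ℤ) : ℝ) = 0 := h1.symm
  exact_mod_cast h3

end gen

section matrix

variable {X : Type} [Fintype X] [DecidableEq X]

theorem exists_not_dvd {p : ℕ} (hp : p.Prime) {E : Matrix X X ℤ} {m : ℤ} (hm : ¬ (p : ℤ) ∣ m)
    (hE : E * E = m • E) (h0 : E ≠ 0) : ∃ a b, ¬ (p : ℤ) ∣ E a b := by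
  by_contra h
  have h1 : ∀ a b, (p : ℤ) ∣ E a b := fun a b => by
    by_contra h2
    exact h ⟨a, b, h2⟩
  have hp' : Prime (p : ℤ) := Nat.prime_iff_prime_int.1 hp
  have h2 : ∀ n : ℕ, ∀ a b, (p : ℤ) ^ n ∣ E a b := by
    intro n
    induction n with
    | zero => intro a b; simp
    | succ n ih =>
      intro a b
      have h3 : (p : ℤ) ^ (n + 1) ∣ m * E a b := by
        have h4 := congrFun (congrFun hE a) b
        rw [Matrix.mul_apply, Matrix.smul_apply, smul_eq_mul] at h4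
        rw [← h4, pow_succ]
        exact Finset.dvd_sum fun x _ => mul_dvd_mul (ih a x) (h1 x b)
      exact hp'.pow_dvd_of_dvd_mul_left _ hm h3
  refine h0 (Matrix.ext fun a b => ?_)
  refine Int.eq_zero_of_abs_lt_dvd (h2 (E a b).natAbs a b) ?_
  rw [Int.abs_eq_natAbs]
  exact_mod_cast Nat.lt_pow_self hp.one_lt

theorem trace_ne_zero {E : Matrix X X ℤ} {m : ℤ} (hm : m ≠ 0) (hE : E * E = m • E)
    (h0 : E ≠ 0) : ∑ a, E a a ≠ 0 := by
  intro h
  have hm' : (m : ℚ) ≠ 0 := by exact_mod_cast hm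
  let A : Matrix X X ℚ := (m : ℚ)⁻¹ • E.map (Int.castRingHom ℚ)
  have h1 : E.map (Int.castRingHom ℚ) * E.map (Int.castRingHom ℚ) =
      (m : ℚ) • E.map (Int.castRingHom ℚ) := by
    rw [← Matrix.map_mul, hE]
    ext a b
    simp only [Matrix.map_apply, Matrix.smul_apply, smul_eq_mul, map_mul, eq_intCast]
  have hA : A * A = A := by
    simp only [A, Matrix.smul_mul, Matrix.mul_smul, h1, smul_smul]
    rw [inv_mul_cancel₀ hm', mul_one]
  have h2 : IsIdempotentElem (Matrix.toLin' A) := by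
    change Matrix.toLin' A ∘ₗ Matrix.toLin' A = _
    rw [← Matrix.toLin'_mul, hA]
  have h3 : LinearMap.trace ℚ _ (Matrix.toLin' A) = 0 := by
    rw [Matrix.trace_toLin'_eq, Matrix.trace_smul]
    have h4 : (E.map (Int.castRingHom ℚ)).trace = ((∑ a, E a a : ℤ) : ℚ) := by
      simp [Matrix.trace]
    rw [h4, h, Int.cast_zero, smul_zero]
  have h4 : A = 0 := Matrix.toLin'.map_eq_zero_iff.1 (LinearMap.IsIdempotentElem.eq_zero_of_trace_eq_zero h2 h3)
  refine h0 (Matrix.ext fun a b => ?_)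
  have h5 := congrFun (congrFun h4 a) b
  simpa [A, hm] using h5

end matrix

theorem mat_mul {P ι : Type} [Fintype P] [DecidableEq P] [Fintype ι] [DecidableEq ι]
    (x y : MonoidAlgebra ℤ (Equiv.Perm P)) (a b : P → ι) :
    mat (x * y) a b = ∑ c, mat x a c * mat y c b := by
  have h1 : ∀ c : P → ι, mat x a c * mat y c b =
      ∑ σ : Equiv.Perm P, if a ∘ σ = c then x.coeff σ * mat y (a ∘ σ) b else 0 := fun c => by
    rw [mat, Finset.sum_mul]
    refine Finset.sum_congr rfl fun σ _ => ?_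
    split_ifs with h
    · rw [h]
    · rw [zero_mul]
  simp only [h1]
  rw [Finset.sum_comm]
  simp only [Finset.sum_ite_eq, Finset.mem_univ, if_true]
  simp only [mat, MonoidAlgebra.coeff_mul_apply_left, Finset.mul_sum]
  have h2 : ∀ τ : Equiv.Perm P, (if a ∘ τ = b then
      x.coeff.sum fun σ r => r * y.coeff (σ⁻¹ * τ) else 0) =
      ∑ σ : Equiv.Perm P, if a ∘ τ = b then x.coeff σ * y.coeff (σ⁻¹ * τ) else 0 := fun τ => by
    rw [Finsupp.sum_fintype _ _ (fun _ => zero_mul _)]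
    split_ifs <;> simp
  simp only [h2]
  rw [Finset.sum_comm]
  refine Finset.sum_congr rfl fun σ _ => ?_
  refine (Fintype.sum_equiv (Equiv.mulLeft σ) _ _ fun τ => ?_).symm
  simp only [Equiv.coe_mulLeft, inv_mul_cancel_left, Equiv.Perm.coe_mul, mul_ite, mul_zero]
  rfl

theorem mat_smul {P ι : Type} [Fintype P] [DecidableEq P] [DecidableEq ι] (m : ℤ)
    (x : MonoidAlgebra ℤ (Equiv.Perm P)) (a b : P → ι) : mat (m • x) a b = m * mat x a b := by
  simp only [mat, Finset.mul_sum, mul_ite, mul_zero]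
  rfl

theorem mat_comp {P ι κ : Type} [Fintype P] [DecidableEq P] [DecidableEq ι] [DecidableEq κ]
    (x : MonoidAlgebra ℤ (Equiv.Perm P)) (a b : P → ι) (φ : ι → κ)
    (h : ∀ i j, φ (a i) = φ (b j) → a i = b j) : mat x (φ ∘ a) (φ ∘ b) = mat x a b := by
  refine Finset.sum_congr rfl fun σ _ => if_congr ⟨fun h1 => ?_, fun h1 => ?_⟩ rfl rfl
  · exact funext fun i => h _ _ (congrFun h1 i)
  · rw [← h1]; rfl

/-- The properties of the quasi-idempotent. -/
structure IsIdem {P : Type} [Fintype P] [DecidableEq P] (p M : ℕ)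
    (ε : MonoidAlgebra ℤ (Equiv.Perm P)) (m : ℤ) : Prop where
  unit : ¬ (p : ℤ) ∣ m
  sq : ε * ε = m • ε
  kill : ∀ (ι : Type) [DecidableEq ι] (a b : P → ι), (univ.image b).card < M → mat ε a b = 0
  ne : ∃ a b : P → Fin M, ¬ (p : ℤ) ∣ mat ε a b
  trace : ∑ a : P → Fin M, mat ε a a ≠ 0

open Pos in
theorem exists_idem_pos {q : ℕ} (hp : (q + 1).Prime) (M : ℕ) :
    ∃ (ε : MonoidAlgebra ℤ (Equiv.Perm (Pos q (M * q + 1)))) (m : ℤ),
      IsIdem (q + 1) (M + 1) ε m := by
  have hq : 0 < q := by have := hp.two_le; omega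
  let P := Pos q (M * q + 1)
  let N := Fintype.card P + (M + 1)
  let ε := idem (P := P) (q + 1) N blk
  let m := sc (P := P) (q + 1) N blk
  have hm : ¬ ((q + 1 : ℕ) : ℤ) ∣ m := not_dvd_sc _ _ _ hp
  have hlast : M * q < M * q + 1 := Nat.lt_succ_self _
  have hdiv : M * q / q = M := Nat.mul_div_cancel _ hq
  have hP : Nonempty P := ⟨mk' hlast 0⟩
  have hsq : ε * ε = m • ε := by
    have : Nonempty (Fin (Fintype.card P)) := ⟨⟨0, Fintype.card_pos⟩⟩
    exact sub_eq_zero.1 (eq_zero_of_rep (rep_idem_sq (Nat.le_add_right _ _) (Nat.le_add_right _ _)))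
  have hkill : ∀ d, 0 < d → d < M + 1 → rep P d ε = 0 := fun d hd0 hd => by
    have : Nonempty (Fin d) := ⟨⟨0, hd0⟩⟩
    refine eq_zero_of_joint (sys P d).L (sys P d).symm_L (sys P d).commute_L_L _
      fun w c hw hc => ?_
    obtain ⟨z, hz⟩ := exists_int (N := N) (Nat.le_add_right _ _) (by omega) hw hc
    rw [rep_idem (fun i => (hz i).2) (fun i => (hz i).1 ▸ hc i), if_neg, zero_smul]
    intro h1
    obtain ⟨row, hr⟩ := (sys P d).chain_of_joint c hw hc
    have h2 := inj_of_good hlast fun i _ => good_of_res hq (c := c) (b := M * q + 1)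
      (fun j _ => ⟨hr j, z j, (hz j).1, h1 j⟩) i i.blk_lt
    have h3 := Fintype.card_le_of_injective _ h2
    rw [Fintype.card_fin, Fintype.card_fin, hdiv] at h3
    omega
  have hne : (Matrix.of (mat ε) : Matrix (P → Fin (M + 1)) (P → Fin (M + 1)) ℤ) ≠ 0 := by
    intro h0
    obtain ⟨w, c, hw, hc, -⟩ := exists_res (q := q) (B := M * q + 1) (d := M + 1) hq
      (fun i => Nat.lt_succ_of_le (i.pl_le.trans
        ((Nat.div_le_div_right (Nat.le_of_lt_succ i.blk_lt)).trans hdiv.le))) _ le_rfl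
    obtain ⟨z, hz⟩ := exists_int (N := N) (Nat.le_add_right _ _) (Nat.le_add_left _ _) hw
      (fun i => (hc i i.blk_lt).1)
    have h1 := rep_idem (p := q + 1) (ρ := blk) (fun i => (hz i).2)
      (fun i => (hz i).1 ▸ (hc i i.blk_lt).1)
    rw [if_pos (fun i => by
      obtain ⟨y, h2, h3⟩ := (hc i i.blk_lt).2
      have h4 : z i = y := by exact_mod_cast (hz i).1.symm.trans h2
      rw [h4]
      exact h3)] at h1
    have h2 : rep P (M + 1) ε w = 0 := by
      ext a
      rw [rep_apply_mat]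
      refine Finset.sum_eq_zero fun b _ => ?_
      have h3 : mat ε a b = 0 := congrFun (congrFun h0 a) b
      rw [h3, Int.cast_zero, zero_mul]
    have h3 := (smul_eq_zero.1 (h1.symm.trans h2)).resolve_right hw
    have h4 : m = 0 := by exact_mod_cast h3
    exact hm (h4 ▸ dvd_zero _)
  have hE : (Matrix.of (mat ε) : Matrix (P → Fin (M + 1)) (P → Fin (M + 1)) ℤ) *
      Matrix.of (mat ε) = m • Matrix.of (mat ε) := by
    ext a b
    rw [Matrix.mul_apply, Matrix.smul_apply, smul_eq_mul]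
    simp only [Matrix.of_apply]
    rw [← mat_mul, hsq, mat_smul]
  refine ⟨ε, m, hm, hsq, fun ι _ a b hb => ?_, exists_not_dvd hp hm hE hne,
    trace_ne_zero (m := m) (fun h => hm (by rw [h]; exact dvd_zero _)) hE hne⟩
  by_cases hab : ∃ σ : Equiv.Perm P, a ∘ σ = b
  · obtain ⟨σ, hσ⟩ := hab
    have ha : ∀ i, a i ∈ univ.image b := fun i =>
      Finset.mem_image.2 ⟨σ.symm i, Finset.mem_univ _, by rw [← hσ]; simp⟩
    have hb' : ∀ i, b i ∈ univ.image b := fun i => Finset.mem_image_of_mem _ (Finset.mem_univ i)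
    have hd : 0 < (univ.image b).card := Finset.card_pos.2 ⟨_, hb' hP.some⟩
    let φ : ι → Fin (univ.image b).card := fun x =>
      if h : x ∈ univ.image b then (univ.image b).equivFin ⟨x, h⟩ else ⟨0, hd⟩
    have h1 := rep_single ε (φ ∘ a) (φ ∘ b)
    rw [hkill _ hd hb, mat_comp ε a b φ (fun i j h => by
      simp only [φ, dif_pos (ha i), dif_pos (hb' j)] at h
      exact congrArg Subtype.val ((univ.image b).equivFin.injective h))] at h1
    have h2 : ((mat ε a b : ℤ) : ℝ) = 0 := h1.symm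
    exact_mod_cast h2
  · exact Finset.sum_eq_zero fun σ _ => if_neg fun h => hab ⟨σ, h⟩

theorem mat_congr {P Q ι : Type} [Fintype P] [DecidableEq P] [Fintype Q] [DecidableEq Q]
    [DecidableEq ι] (e : P ≃ Q) (x : MonoidAlgebra ℤ (Equiv.Perm P)) (a b : Q → ι) :
    mat (MonoidAlgebra.domCongr ℤ ℤ e.permCongrHom x) a b = mat x (a ∘ e) (b ∘ e) := by
  refine (Fintype.sum_equiv e.permCongrHom.toEquiv _ _ fun σ => ?_).symm
  rw [MonoidAlgebra.coeff_domCongr]
  refine if_congr ⟨fun h => funext fun i => ?_, fun h => funext fun i => ?_⟩ ?_ rfl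
  · have h1 := congrFun h (e.symm i)
    simpa using h1
  · have h1 := congrFun h (e i)
    simpa using h1
  · exact congrArg x.coeff (e.permCongrHom.symm_apply_apply σ).symm

theorem IsIdem.congr {P Q : Type} [Fintype P] [DecidableEq P] [Fintype Q] [DecidableEq Q]
    {p M : ℕ} {ε : MonoidAlgebra ℤ (Equiv.Perm P)} {m : ℤ} (h : IsIdem p M ε m) (e : P ≃ Q) :
    IsIdem p M (MonoidAlgebra.domCongr ℤ ℤ e.permCongrHom ε) m where
  unit := h.unit
  sq := by rw [← map_mul, h.sq, map_zsmul]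
  kill ι _ a b hb := by
    rw [mat_congr]
    refine h.kill ι _ _ (lt_of_le_of_lt (Finset.card_le_card fun x hx => ?_) hb)
    obtain ⟨i, -, rfl⟩ := Finset.mem_image.1 hx
    exact Finset.mem_image_of_mem _ (Finset.mem_univ _)
  ne := by
    obtain ⟨a, b, hab⟩ := h.ne
    refine ⟨a ∘ e.symm, b ∘ e.symm, ?_⟩
    rw [mat_congr]
    simpa only [Function.comp_assoc, Equiv.symm_comp_self, Function.comp_id] using hab
  trace := by
    simp only [mat_congr]
    have h1 := Fintype.sum_equiv (e.symm.arrowCongr (Equiv.refl (Fin M)))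
      (fun a : Q → Fin M => mat ε (a ∘ e) (a ∘ e)) (fun a => mat ε a a) (fun _ => rfl)
    rw [h1]
    exact h.trace

/-- **The quasi-idempotent.** -/
theorem exists_idem {p : ℕ} (hp : p.Prime) {M : ℕ} (hM : 1 ≤ M) :
    ∃ (r : ℕ) (ε : MonoidAlgebra ℤ (Equiv.Perm (Fin r))) (m : ℤ), IsIdem p M ε m := by
  obtain ⟨q, rfl⟩ : ∃ q, p = q + 1 := ⟨p - 1, by have := hp.pos; omega⟩
  obtain ⟨M, rfl⟩ : ∃ M', M = M' + 1 := ⟨M - 1, by omega⟩
  obtain ⟨ε, m, h⟩ := exists_idem_pos hp M
  exact ⟨_, _, m, h.congr (Fintype.equivFin _)⟩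

end Vale.Agent.P261Z.JM
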