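import Vale.Agent.P261Z.JM.Comb
import Mathlib.Analysis.InnerProductSpace.PiL2
import Mathlib.Algebra.MonoidAlgebra.Basic
import Mathlib.LinearAlgebra.Matrix.Adjugate

/-!
# P261, Jucys-Murphy elements: the tensor space and its highest weight vector
-/

set_option linter.unusedSectionVars false

open Finset

namespace Vale.Agent.P261Z.JM

section model

variable {P : Type} [Fintype P] [LinearOrder P] {d : ℕ}

/-- The tensor space: functions on words. -/
abbrev TS (P : Type) (d : ℕ) : Type := EuclideanSpace ℝ (P → Fin d)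

/-- the matrix unit at the position `i` -/
noncomputable def eOp (i : P) (a b : Fin d) : Module.End ℝ (TS P d) where
  toFun w := WithLp.toLp 2 fun x => if x i = a then w (Function.update x i b) else 0
  map_add' v w := by
    ext x
    simp only [PiLp.add_apply]
    split_ifs <;> simp
  map_smul' t w := by
    ext x
    simp only [PiLp.smul_apply, RingHom.id_apply]
    split_ifs <;> simp

theorem eOp_apply (i : P) (a b : Fin d) (w : TS P d) (x : P → Fin d) :
    eOp i a b w x = if x i = a then w (Function.update x i b) else 0 := rfl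

/-- the action of a permutation of the positions -/
noncomputable def pOp (σ : Equiv.Perm P) : Module.End ℝ (TS P d) where
  toFun w := WithLp.toLp 2 fun x => w (x ∘ σ)
  map_add' _ _ := rfl
  map_smul' _ _ := rfl

theorem pOp_apply (σ : Equiv.Perm P) (w : TS P d) (x : P → Fin d) : pOp σ w x = w (x ∘ σ) := rfl

/-- The tensor space as a system of matrix units. -/
noncomputable def sys (P : Type) [Fintype P] [LinearOrder P] (d : ℕ) : Sys P d (TS P d) where
  e := eOp
  mul i a b c f := by
    ext w x
    rw [Module.End.mul_apply, eOp_apply, eOp_apply, Function.update_self, Function.update_idem]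
    by_cases h : b = c
    · rw [if_pos h, if_pos h, eOp_apply]
    · rw [if_neg h, if_neg h, ite_self]
      rfl
  sum i := by
    ext w x
    simp only [LinearMap.sum_apply, WithLp.ofLp_sum, Finset.sum_apply, eOp_apply,
      Finset.sum_ite_eq, Finset.mem_univ, if_true, Function.update_eq_self, Module.End.one_apply]
  comm i j h a b c f := by
    ext w x
    simp only [Module.End.mul_apply, eOp_apply, Function.update_of_ne h, Function.update_of_ne h.symm,
      Function.update_comm h]
    split_ifs <;> rfl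
  adj i a b v w := by
    have key : ∀ (a b : Fin d) (v w : TS P d), ∑ x, (eOp i a b v x) * w x =
        ∑ x, ∑ y, if x i = a ∧ y = Function.update x i b then v y * w x else 0 := by
      intro a b v w
      refine Finset.sum_congr rfl fun x _ => ?_
      rw [eOp_apply]
      by_cases h : x i = a
      · simp [h]
      · simp [h]
    have h1 : inner ℝ (eOp i a b v) w = ∑ x, (eOp i a b v x) * w x := by
      rw [PiLp.inner_apply]
      exact Finset.sum_congr rfl fun x _ => by simp [mul_comm]
    have h2 : inner ℝ v (eOp i b a w) = ∑ x, (eOp i b a w x) * v x := by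
      rw [PiLp.inner_apply]
      exact Finset.sum_congr rfl fun x _ => by simp
    rw [h1, h2, key, key, Finset.sum_comm]
    refine Finset.sum_congr rfl fun x _ => Finset.sum_congr rfl fun y _ => ?_
    have h3 : (y i = a ∧ x = Function.update y i b) ↔ (x i = b ∧ y = Function.update x i a) := by
      constructor
      · rintro ⟨h4, h5⟩
        subst h5
        refine ⟨Function.update_self _ _ _, ?_⟩
        rw [Function.update_idem, ← h4, Function.update_eq_self]
      · rintro ⟨h4, h5⟩
        subst h5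
        refine ⟨Function.update_self _ _ _, ?_⟩
        rw [Function.update_idem, ← h4, Function.update_eq_self]
    simp only [h3, mul_comm]

theorem sys_e (i : P) (a b : Fin d) : (sys P d).e i a b = eOp i a b := rfl

theorem sw_eq {i j : P} (h : i ≠ j) : (sys P d).sw i j = pOp (Equiv.swap i j) := by
  ext w x
  simp only [Sys.sw, sys_e, LinearMap.sum_apply, WithLp.ofLp_sum, Finset.sum_apply,
    Module.End.mul_apply, eOp_apply, Function.update_of_ne h.symm, pOp_apply]
  rw [Finset.sum_comm]
  simp only [Finset.sum_ite_eq, Finset.mem_univ, if_true]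
  refine congrArg (fun y => w y) ?_
  funext l
  by_cases h1 : l = j
  · rw [h1, Function.update_self, Function.comp_apply, Equiv.swap_apply_right]
  · rw [Function.update_of_ne h1]
    by_cases h2 : l = i
    · rw [h2, Function.update_self, Function.comp_apply, Equiv.swap_apply_left]
    · rw [Function.update_of_ne h2, Function.comp_apply, Equiv.swap_apply_of_ne_of_ne h2 h1]

/-- The representation of the symmetric group on the tensor space. -/
noncomputable def pHom (P : Type) [Fintype P] [LinearOrder P] (d : ℕ) :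
    Equiv.Perm P →* Module.End ℝ (TS P d) where
  toFun := pOp
  map_one' := LinearMap.ext fun _ => rfl
  map_mul' _ _ := LinearMap.ext fun _ => rfl

/-- The representation of the group ring on the tensor space. -/
noncomputable def rep (P : Type) [Fintype P] [LinearOrder P] (d : ℕ) :
    MonoidAlgebra ℤ (Equiv.Perm P) →ₐ[ℤ] Module.End ℝ (TS P d) :=
  MonoidAlgebra.lift ℤ _ _ (pHom P d)

theorem rep_of (σ : Equiv.Perm P) : rep P d (MonoidAlgebra.of ℤ _ σ) = pOp σ :=
  MonoidAlgebra.lift_of _ _

theorem rep_apply (ε : MonoidAlgebra ℤ (Equiv.Perm P)) (w : TS P d) (x : P → Fin d) :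
    rep P d ε w x = ∑ σ, (ε.coeff σ : ℝ) * w (x ∘ σ) := by
  rw [rep, MonoidAlgebra.lift_apply,
    Finsupp.sum_fintype ε.coeff (fun a b => b • pHom P d a) (fun _ => zero_smul _ _)]
  simp only [LinearMap.sum_apply, WithLp.ofLp_sum, Finset.sum_apply]
  refine Finset.sum_congr rfl fun σ _ => ?_
  rw [← Int.cast_smul_eq_zsmul ℝ]
  rfl

end model

section vector

open Pos

variable {q B d : ℕ}

/-- the matrix of a word in a block -/
noncomputable def bm (b : Fin B) (x : Pos q B → Fin d) :
    Matrix (Fin (b / q + 1)) (Fin (b / q + 1)) ℝ :=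
  fun t s => if (x (mk' b.2 t) : ℕ) = s then 1 else 0

/-- the product of the exterior products -/
noncomputable def hv (q B d : ℕ) : TS (Pos q B) d := WithLp.toLp 2 fun x => ∏ b, (bm b x).det

theorem bm_update_ne {b b' : Fin B} (h : b' ≠ b) (x : Pos q B → Fin d) (t : Fin (b / q + 1))
    (β : Fin d) : bm b' (Function.update x (mk' b.2 t) β) = bm b' x := by
  funext t' s
  have h1 : mk' (q := q) b'.2 t' ≠ mk' b.2 t := fun h2 => h (Fin.ext (congrArg blk h2 :))
  simp only [bm, Function.update_of_ne h1]

theorem bm_update (b : Fin B) (x : Pos q B → Fin d) (t : Fin (b / q + 1)) (β : Fin d) :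
    bm b (Function.update x (mk' b.2 t) β) =
      (bm b x).updateRow t fun s => if (β : ℕ) = s then 1 else 0 := by
  funext t' s
  by_cases h : t' = t
  · subst h
    simp only [bm, Function.update_self, Matrix.updateRow_self]
  · have h1 : mk' (q := q) b.2 t' ≠ mk' b.2 t := fun h2 => h (mk'_injective b.2 h2)
    simp only [bm, Function.update_of_ne h1, Matrix.updateRow_ne h]

theorem sum_det (b : Fin B) (x : Pos q B → Fin d) {α β : Fin d} (h : α ≤ β) :
    (∑ t, if x (mk' b.2 t) = α then (bm b (Function.update x (mk' b.2 t) β)).det else 0) =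
      (if α = β ∧ (α : ℕ) ≤ b / q then 1 else 0) * (bm b x).det := by
  simp only [bm_update]
  by_cases hβ : (β : ℕ) ≤ b / q
  · have hα : (α : ℕ) ≤ b / q := le_trans h hβ
    let α' : Fin (b / q + 1) := ⟨α, Nat.lt_succ_of_le hα⟩
    let β' : Fin (b / q + 1) := ⟨β, Nat.lt_succ_of_le hβ⟩
    have h1 : (fun s : Fin (b / q + 1) => if (β : ℕ) = s then (1 : ℝ) else 0) = Pi.single β' 1 := by
      funext s
      by_cases h2 : s = β'
      · rw [h2, Pi.single_eq_same, if_pos rfl]
      · rw [Pi.single_eq_of_ne h2, if_neg (fun h3 => h2 (Fin.ext h3.symm))]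
    have h2 := congrFun (congrFun (Matrix.adjugate_mul (bm b x)) β') α'
    rw [Matrix.mul_apply, Matrix.smul_apply, Matrix.one_apply, smul_eq_mul, mul_comm] at h2
    have h3 : (β' = α') ↔ (α = β ∧ (α : ℕ) ≤ b / q) :=
      ⟨fun h4 => ⟨Fin.ext (congrArg Fin.val h4 :).symm, hα⟩,
        fun h4 => Fin.ext (congrArg Fin.val h4.1 :).symm⟩
    simp only [h3] at h2
    rw [← h2, h1]
    refine Finset.sum_congr rfl fun t _ => ?_
    rw [Matrix.adjugate_apply]
    have h4 : bm b x t α' = if x (mk' b.2 t) = α then 1 else 0 := by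
      simp only [bm, α', Fin.ext_iff]
    rw [h4, mul_ite, mul_one, mul_zero]
  · have h1 : ¬ (α = β ∧ (α : ℕ) ≤ b / q) := fun h2 => hβ (h2.1 ▸ h2.2)
    rw [if_neg h1, zero_mul]
    refine Finset.sum_eq_zero fun t _ => ?_
    split_ifs with h2
    · refine Matrix.det_eq_zero_of_row_eq_zero t fun s => ?_
      rw [Matrix.updateRow_self, if_neg]
      intro h3
      have := s.2
      omega
    · rfl

theorem E_blo (b : Fin B) {α β : Fin d} (h : α ≤ β) :
    (sys (Pos q B) d).E (blo q B b) α β (hv q B d) =
      (if α = β ∧ (α : ℕ) ≤ b / q then (1 : ℝ) else 0) • hv q B d := by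
  ext x
  rw [Sys.E, blo_eq b.2, Finset.sum_map]
  simp only [Function.Embedding.coeFn_mk, sys_e, LinearMap.sum_apply, WithLp.ofLp_sum,
    Finset.sum_apply, eOp_apply, PiLp.smul_apply, smul_eq_mul]
  have h1 : ∀ y : Pos q B → Fin d,
      hv q B d y = (bm b y).det * ∏ b' ∈ univ.erase b, (bm b' y).det := fun y =>
    (Finset.mul_prod_erase univ (fun b' => (bm b' y).det) (Finset.mem_univ b)).symm
  have h2 : ∀ t, ∏ b' ∈ univ.erase b, (bm b' (Function.update x (mk' b.2 t) β)).det =
      ∏ b' ∈ univ.erase b, (bm b' x).det := fun t =>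
    Finset.prod_congr rfl fun b' hb' => by rw [bm_update_ne (Finset.mem_erase.1 hb').1]
  simp only [h1, h2]
  rw [← mul_assoc, ← sum_det b x h, Finset.sum_mul]
  refine Finset.sum_congr rfl fun t _ => ?_
  rw [ite_mul, zero_mul]

theorem high_hv (hq : 0 < q) : ∀ b, b ≤ B →
    (sys (Pos q B) d).High (bef q B b) (fun a => ((b - a * q : ℕ) : ℝ)) (hv q B d)
  | 0, _ => by
    have : bef q B 0 = ∅ := by ext i; simp [mem_bef]
    rw [this]
    exact ⟨fun a b _ => by simp [Sys.E], fun a => by simp [Sys.E]⟩
  | b + 1, hb => by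
    have ih := high_hv hq b (by omega)
    have h1 : ∀ α β : Fin d, (sys (Pos q B) d).E (bef q B (b + 1)) α β =
        (sys (Pos q B) d).E (bef q B b) α β + (sys (Pos q B) d).E (blo q B b) α β := fun α β => by
      rw [bef_succ]
      exact Finset.sum_union (disj b)
    refine ⟨fun α β h => ?_, fun α => ?_⟩
    · rw [h1, LinearMap.add_apply, ih.up α β h, E_blo ⟨b, hb⟩ h.le, if_neg (fun h2 => h.ne h2.1),
        zero_smul, add_zero]
    · rw [h1, LinearMap.add_apply, ih.wt α, E_blo ⟨b, hb⟩ le_rfl, ← add_smul]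
      congr 1
      simp only [true_and, Nat.le_div_iff_mul_le hq]
      split_ifs with h2
      · rw [Nat.succ_sub h2]
        push_cast
        rfl
      · rw [add_zero, Nat.sub_eq_zero_of_le (by omega), Nat.sub_eq_zero_of_le (by omega)]

theorem hv_ne_zero (h : ∀ i : Pos q B, i.pl < d) : hv q B d ≠ 0 := by
  intro h0
  have h1 : hv q B d (fun i => ⟨i.pl, h i⟩) = 1 := by
    change ∏ b, (bm b (fun i : Pos q B => (⟨i.pl, h i⟩ : Fin d))).det = 1
    refine Finset.prod_eq_one fun b _ => ?_
    have h2 : bm b (fun i : Pos q B => (⟨i.pl, h i⟩ : Fin d)) = 1 := by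
      funext t s
      rw [Matrix.one_apply]
      exact if_congr (Fin.ext_iff (a := t) (b := s)).symm rfl rfl
    rw [h2, Matrix.det_one]
  rw [h0] at h1
  exact zero_ne_one h1

/-- There is a joint eigenvector with the residue sequence. -/
theorem exists_res (hq : 0 < q) [Nonempty (Fin d)] (h : ∀ i : Pos q B, i.pl < d) :
    ∀ b, b ≤ B → ∃ (w : TS (Pos q B) d) (c : Pos q B → ℝ), w ≠ 0 ∧
      (∀ i, i.blk < b → (sys (Pos q B) d).L i w = c i • w ∧ Res (q + 1) (c i) i.blk) ∧
      ∀ b', b ≤ b' → b' ≤ B →
        (sys (Pos q B) d).High (bef q B b') (fun a => ((b' - a * q : ℕ) : ℝ)) w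
  | 0, _ => ⟨hv q B d, fun _ => 0, hv_ne_zero h, fun _ hi => absurd hi (Nat.not_lt_zero _),
      fun b' _ hb' => high_hv hq b' hb'⟩
  | b + 1, hb => by
    obtain ⟨w, c, hw, hc, hH⟩ := exists_res hq h b (by omega)
    let s := sys (Pos q B) d
    let U : Submodule ℝ (TS (Pos q B) d) :=
      { carrier := {v | (∀ i, i.blk < b → s.L i v = c i • v) ∧ ∀ b', b + 1 ≤ b' → b' ≤ B →
          s.High (bef q B b') (fun a => ((b' - a * q : ℕ) : ℝ)) v}
        add_mem' := fun {x y} hx hy =>
          ⟨fun i hi => by rw [map_add, hx.1 i hi, hy.1 i hi, smul_add],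
            fun b' h1 h2 => ⟨fun α β hαβ => by
              rw [map_add, (hx.2 b' h1 h2).up α β hαβ, (hy.2 b' h1 h2).up α β hαβ, add_zero],
              fun α => by rw [map_add, (hx.2 b' h1 h2).wt α, (hy.2 b' h1 h2).wt α, smul_add]⟩⟩
        zero_mem' := ⟨fun i _ => by rw [map_zero, smul_zero],
          fun b' _ _ => ⟨fun α β _ => map_zero _, fun α => by rw [map_zero, smul_zero]⟩⟩
        smul_mem' := fun t x hx =>
          ⟨fun i hi => by rw [map_smul, hx.1 i hi, smul_comm],
            fun b' h1 h2 => ⟨fun α β hαβ => by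
              rw [map_smul, (hx.2 b' h1 h2).up α β hαβ, smul_zero],
              fun α => by rw [map_smul, (hx.2 b' h1 h2).wt α, smul_comm]⟩⟩ }
    obtain ⟨v, hvU, hv0, χ, hχ⟩ := exists_joint (I := {i : Pos q B // i.blk < b + 1})
      (fun i => s.L i.1) (fun i => s.symm_L i.1) (fun i j => s.commute_L_L i.1 j.1) U
      (fun i x hx => by
        have h1 : ∀ b' α β, b + 1 ≤ b' →
            s.E (bef q B b') α β (s.L i.1 x) = s.L i.1 (s.E (bef q B b') α β x) :=
          fun b' α β h2 => (LinearMap.congr_fun (s.commute_L_E (lower_bef b')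
            (mem_bef.2 (lt_of_lt_of_le i.2 h2)) α β).eq x).symm
        refine ⟨fun j hj => ?_, fun b' h2 h3 => ⟨fun α β hαβ => ?_, fun α => ?_⟩⟩
        · have h4 := LinearMap.congr_fun (s.commute_L_L j i.1).eq x
          simp only [Module.End.mul_apply] at h4
          rw [h4, hx.1 j hj, map_smul]
        · rw [h1 b' α β h2, (hx.2 b' h2 h3).up α β hαβ, map_zero]
        · rw [h1 b' α α h2, (hx.2 b' h2 h3).wt α, map_smul])
      (u := w) ⟨fun i hi => (hc i hi).1, fun b' h1 h2 => hH b' (by omega) h2⟩ hw
    let c' : Pos q B → ℝ := fun i => if hi : i.blk < b + 1 then χ ⟨i, hi⟩ else 0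
    have hc' : ∀ i, i.blk < b + 1 → s.L i v = c' i • v := fun i hi => by
      simp only [c', dif_pos hi]
      exact hχ ⟨i, hi⟩
    have hcc : ∀ i, i.blk < b → c' i = c i := fun i hi =>
      smul_left_injective ℝ hv0 ((hc' i (by omega)).symm.trans (hvU.1 i hi))
    obtain ⟨row, hr1, hr2⟩ := s.chain c' (bef q B (b + 1)) (lower_bef _) _ v hv0
      (hvU.2 (b + 1) le_rfl hb) (fun i hi => hc' i (mem_bef.1 hi))
    have hg : ∀ j : Pos q B, j.blk < b → Good row j :=
      good_of_res hq (c := c') fun i hi =>
        ⟨hr2 i (mem_bef.2 (by omega)), (hcc i hi).symm ▸ (hc i hi).2⟩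
    refine ⟨v, c', hv0, fun i hi => ⟨hc' i hi, ?_⟩, fun b' h1 h2 => hvU.2 b' h1 h2⟩
    rcases Nat.lt_or_ge i.blk b with h1 | h1
    · exact (hcc i h1).symm ▸ (hc i h1).2
    · have h2 : i.blk = b := by omega
      refine res_of_cnt hq (fun j hj => hg j (h2 ▸ hj)) (fun a => ?_) (hr2 i (mem_bef.2 hi))
      rw [h2]
      exact_mod_cast (hr1 a).symm

end vector

end Vale.Agent.P261Z.JM
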