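import Vale.Agent.P261Z.JM.Main

/-!
# P261: the Smith element, with the traces of its powers
-/

open Finset

namespace Vale.Agent.P261Z.JM

variable {P : Type} [Fintype P] [DecidableEq P] {p M : ℕ}
  {ε : MonoidAlgebra ℤ (Equiv.Perm P)} {m : ℤ}

theorem IsIdem.pow_succ (h : IsIdem p M ε m) (k : ℕ) : ε ^ (k + 1) = m ^ k • ε := by
  induction k with
  | zero => rw [zero_add, pow_one, pow_zero, one_smul]
  | succ k ih => rw [_root_.pow_succ, ih, smul_mul_assoc, h.sq, smul_smul, ← _root_.pow_succ]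

theorem IsIdem.smul (hp : p.Prime) (h : IsIdem p M ε m) {u : ℤ} (hu : ¬ (p : ℤ) ∣ u) :
    IsIdem p M (u • ε) (u * m) where
  unit := fun h1 => ((Nat.prime_iff_prime_int.1 hp).dvd_or_dvd h1).elim hu h.unit
  sq := by rw [smul_mul_smul_comm, h.sq, smul_smul, smul_smul, mul_right_comm]
  kill ι _ a b hb := by rw [mat_smul, h.kill ι a b hb, mul_zero]
  ne := by
    obtain ⟨a, b, hab⟩ := h.ne
    refine ⟨a, b, fun h1 => ?_⟩
    rw [mat_smul] at h1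
    exact ((Nat.prime_iff_prime_int.1 hp).dvd_or_dvd h1).elim hu hab
  trace := by
    simp only [mat_smul]
    rw [← Finset.mul_sum]
    exact mul_ne_zero (fun h1 => hu (h1 ▸ dvd_zero _)) h.trace

/-- **The Smith element.** -/
theorem exists_smith (hp : p.Prime) (hM : 1 ≤ M) (N₀ : ℕ) :
    ∃ (r : ℕ) (c : MonoidAlgebra ℤ (Equiv.Perm (Fin r))) (μ : ℤ) (N : ℕ) (d : ℤ),
      IsIdem p M c μ ∧ N₀ ≤ N ∧ (p : ℤ) ^ N ∣ μ - 1 ∧ ¬ (p : ℤ) ^ N ∣ d ∧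
      ∀ j, 1 ≤ j → (p : ℤ) ^ N ∣ (∑ a : Fin r → Fin M, mat (c ^ j) a a) - d := by
  obtain ⟨r, ε, m, h⟩ := exists_idem hp hM
  have hp' : Prime (p : ℤ) := Nat.prime_iff_prime_int.1 hp
  let τ := ∑ a : Fin r → Fin M, mat ε a a
  let N := N₀ + τ.natAbs
  have hτ : ¬ (p : ℤ) ^ N ∣ τ := fun h1 => h.trace (Int.eq_zero_of_abs_lt_dvd h1 (by
    rw [Int.abs_eq_natAbs]
    have h2 : τ.natAbs < p ^ N :=
      lt_of_le_of_lt (Nat.le_add_left _ _) (Nat.lt_pow_self hp.one_lt)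
    exact_mod_cast h2))
  have hco : IsCoprime ((p : ℤ) ^ N) m :=
    ((hp'.irreducible.coprime_iff_not_dvd).2 h.unit).pow_left
  obtain ⟨a, u, hu⟩ := hco
  by_cases hN : N = 0
  · exact absurd (hN ▸ one_dvd τ : (p : ℤ) ^ N ∣ τ) hτ
  have hum : (p : ℤ) ^ N ∣ u * m - 1 := ⟨-a, by rw [← hu]; ring⟩
  have hu' : ¬ (p : ℤ) ∣ u := fun h1 => hp'.not_dvd_one (by
    rw [← hu]
    exact dvd_add (Dvd.dvd.mul_left (dvd_pow_self _ hN) _) (Dvd.dvd.mul_right h1 _))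
  have h1 := h.smul hp hu'
  refine ⟨r, u • ε, u * m, N, u * τ, h1, Nat.le_add_right _ _, hum,
    fun h2 => hτ (hp'.pow_dvd_of_dvd_mul_left _ hu' h2), fun j hj => ?_⟩
  obtain ⟨k, rfl⟩ : ∃ k, j = k + 1 := ⟨j - 1, by omega⟩
  rw [h1.pow_succ]
  simp only [mat_smul]
  rw [← Finset.mul_sum, ← Finset.mul_sum]
  have h3 : (u * m) ^ k * (u * τ) - u * τ = ((u * m) ^ k - 1 ^ k) * (u * τ) := by ring
  exact h3 ▸ Dvd.dvd.mul_right (hum.trans (sub_dvd_pow_sub_pow _ _ _)) _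

end Vale.Agent.P261Z.JM
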