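import Mathlib.Analysis.InnerProductSpace.JointEigenspace
import Mathlib.LinearAlgebra.Eigenspace.Minpoly
import Mathlib.Order.Interval.Finset.Fin

/-!
# P261, Jucys-Murphy elements: the abstract operator calculus

`Sys P d W` : matrix units `e i a b` at the positions `i : P`, acting on a real inner product space.
`L k` is the Jucys-Murphy operator. `Sys.chain` : a joint eigenvector which is a highest weight
vector determines a chain of dominant weights whose contents are the eigenvalues.
-/

set_option linter.unusedSectionVars false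

open Finset

namespace Vale.Agent.P261Z.JM

section joint

variable {W : Type*} [NormedAddCommGroup W] [InnerProductSpace ℝ W] [FiniteDimensional ℝ W]

/-- A non-zero invariant subspace contains a joint eigenvector. -/
theorem exists_joint {I : Type*} (T : I → Module.End ℝ W) (hT : ∀ i, (T i).IsSymmetric)
    (hc : ∀ i j, Commute (T i) (T j)) (U : Submodule ℝ W) (hU : ∀ i, ∀ v ∈ U, T i v ∈ U)
    {u : W} (hu : u ∈ U) (hu0 : u ≠ 0) :
    ∃ w ∈ U, w ≠ 0 ∧ ∃ χ : I → ℝ, ∀ i, T i w = χ i • w := by
  by_contra hne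
  have h1 := LinearMap.IsSymmetric.iSup_iInf_eq_top_of_commute
    (T := fun i => (T i).restrict (hU i)) (fun i => (hT i).restrict_invariant (hU i))
    (fun i j _ => LinearMap.ext fun x => Subtype.ext (LinearMap.congr_fun (hc i j).eq x.1))
  have h2 : (⨆ χ : I → ℝ, ⨅ i, Module.End.eigenspace ((T i).restrict (hU i)) (χ i)) = ⊥ := by
    refine iSup_eq_bot.2 fun χ => ?_
    rw [eq_bot_iff]
    intro x hx
    rw [Submodule.mem_bot]
    by_contra hx0
    refine hne ⟨x.1, x.2, fun h => hx0 (Subtype.ext h), χ, fun i => ?_⟩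
    have h3 := Module.End.mem_eigenspace_iff.1 ((Submodule.mem_iInf _).1 hx i)
    exact congrArg Subtype.val h3
  rw [h2] at h1
  have h4 : (⟨u, hu⟩ : U) ∈ (⊥ : Submodule ℝ U) := h1 ▸ Submodule.mem_top
  exact hu0 (congrArg Subtype.val ((Submodule.mem_bot ℝ).1 h4))

/-- An operator which kills all joint eigenvectors is zero. -/
theorem eq_zero_of_joint {I : Type*} (T : I → Module.End ℝ W) (hT : ∀ i, (T i).IsSymmetric)
    (hc : ∀ i j, Commute (T i) (T j)) (X : Module.End ℝ W)
    (hX : ∀ (w : W) (χ : I → ℝ), w ≠ 0 → (∀ i, T i w = χ i • w) → X w = 0) : X = 0 := by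
  have h1 := LinearMap.IsSymmetric.iSup_iInf_eq_top_of_commute (T := T) hT (fun i j _ => hc i j)
  rw [← LinearMap.ker_eq_top, eq_top_iff, ← h1]
  refine iSup_le fun χ x hx => ?_
  by_cases hx0 : x = 0
  · rw [hx0]; exact Submodule.zero_mem _
  · exact hX x χ hx0 fun i => Module.End.mem_eigenspace_iff.1 ((Submodule.mem_iInf _).1 hx i)

end joint

/-- Matrix units at the positions `P`. -/
structure Sys (P : Type) (d : ℕ) (W : Type) [NormedAddCommGroup W] [InnerProductSpace ℝ W] where
  /-- the matrix unit at a position -/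
  e : P → Fin d → Fin d → Module.End ℝ W
  mul : ∀ i a b c f, e i a b * e i c f = if b = c then e i a f else 0
  sum : ∀ i, ∑ a, e i a a = 1
  comm : ∀ i j, i ≠ j → ∀ a b c f, Commute (e i a b) (e j c f)
  adj : ∀ i a b x y, inner ℝ (e i a b x) y = inner ℝ x (e i b a y)

namespace Sys

variable {P : Type} {d : ℕ} {W : Type} [NormedAddCommGroup W] [InnerProductSpace ℝ W]
  [Fintype P] [LinearOrder P] (s : Sys P d W)

/-- the action of the Lie algebra on the positions in `S` -/
noncomputable def E (S : Finset P) (a b : Fin d) : Module.End ℝ W := ∑ i ∈ S, s.e i a b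

/-- the transposition of two positions -/
noncomputable def sw (i j : P) : Module.End ℝ W := ∑ a, ∑ b, s.e i a b * s.e j b a

/-- the positions before `k` -/
def lt (k : P) : Finset P := univ.filter (· < k)

theorem mem_lt {i k : P} : i ∈ lt k ↔ i < k := by simp [lt]

/-- the Jucys-Murphy operator -/
noncomputable def L (k : P) : Module.End ℝ W := ∑ i ∈ lt k, s.sw i k

theorem e_mul_sw {i j : P} (a b : Fin d) :
    s.e i a b * s.sw i j = s.sw i j * s.e j a b := by
  have h1 : s.e i a b * s.sw i j = ∑ f, s.e i a f * s.e j f b := by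
    simp only [sw, Finset.mul_sum, ← mul_assoc, s.mul, ite_mul, zero_mul]
    rw [Finset.sum_comm]
    simp
  have h2 : s.sw i j * s.e j a b = ∑ f, s.e i a f * s.e j f b := by
    simp only [sw, Finset.sum_mul, mul_assoc, s.mul, mul_ite, mul_zero]
    rw [Finset.sum_comm]
    simp
  rw [h1, h2]

theorem sw_symm {i j : P} (h : i ≠ j) : s.sw i j = s.sw j i := by
  simp only [sw]
  rw [Finset.sum_comm]
  exact Finset.sum_congr rfl fun a _ => Finset.sum_congr rfl fun b _ => (s.comm i j h b a a b).eq

theorem commute_sw_e {i j l : P} (hi : i ≠ l) (hj : j ≠ l) (a b : Fin d) :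
    Commute (s.sw i j) (s.e l a b) :=
  Commute.sum_left _ _ _ fun c _ => Commute.sum_left _ _ _ fun f _ =>
    Commute.mul_left (s.comm i l hi c f a b) (s.comm j l hj f c a b)

theorem commute_sw_E {i j : P} (h : i ≠ j) {S : Finset P} (hi : i ∈ S) (hj : j ∈ S)
    (a b : Fin d) : Commute (s.sw i j) (s.E S a b) := by
  have hj' : j ∈ S.erase i := Finset.mem_erase.2 ⟨h.symm, hj⟩
  rw [E, ← Finset.add_sum_erase S _ hi, ← Finset.add_sum_erase _ _ hj', ← add_assoc]
  refine Commute.add_right ?_ (Commute.sum_right _ _ _ fun l hl => ?_)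
  · have h1 := s.e_mul_sw (i := i) (j := j) a b
    have h2 := s.e_mul_sw (i := j) (j := i) a b
    rw [← s.sw_symm h] at h2
    change _ * _ = _ * _
    rw [mul_add, add_mul, h1, h2, add_comm]
  · have h3 := Finset.mem_erase.1 hl
    exact s.commute_sw_e (Finset.mem_erase.1 h3.2).1.symm h3.1.symm a b

theorem commute_L_E {S : Finset P} (hS : ∀ i ∈ S, ∀ j, j < i → j ∈ S) {k : P} (hk : k ∈ S)
    (a b : Fin d) : Commute (s.L k) (s.E S a b) :=
  Commute.sum_left _ _ _ fun i hi =>
    s.commute_sw_E (mem_lt.1 hi).ne (hS k hk i (mem_lt.1 hi)) hk a b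

theorem commute_L_e {i k : P} (h : i < k) (a b : Fin d) : Commute (s.L i) (s.e k a b) :=
  Commute.sum_left _ _ _ fun _ hj => s.commute_sw_e ((mem_lt.1 hj).trans h).ne h.ne a b

theorem commute_E_e {S : Finset P} {k : P} (h : k ∉ S) (a b c f : Fin d) :
    Commute (s.E S a b) (s.e k c f) :=
  Commute.sum_left _ _ _ fun i hi => s.comm i k (fun hik => h (hik ▸ hi)) a b c f

theorem L_eq (k : P) : s.L k = ∑ a, ∑ b, s.E (lt k) a b * s.e k b a := by
  simp only [L, sw, E, Finset.sum_mul]
  rw [Finset.sum_comm]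
  exact Finset.sum_congr rfl fun a _ => Finset.sum_comm

theorem lower_lt (k : P) : ∀ i ∈ lt k, ∀ j, j < i → j ∈ lt k :=
  fun _ hi _ hj => mem_lt.2 (hj.trans (mem_lt.1 hi))

theorem commute_L_L (i k : P) : Commute (s.L i) (s.L k) := by
  have h : ∀ i k : P, i < k → Commute (s.L i) (s.L k) := fun i k hik => by
    rw [s.L_eq k]
    exact Commute.sum_right _ _ _ fun a _ => Commute.sum_right _ _ _ fun b _ =>
      Commute.mul_right (s.commute_L_E (lower_lt k) (mem_lt.2 hik) a b) (s.commute_L_e hik b a)
  rcases lt_trichotomy i k with h1 | h1 | h1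
  · exact h i k h1
  · rw [h1]
  · exact (h k i h1).symm

theorem adj_E (S : Finset P) (a b : Fin d) (x y : W) :
    inner ℝ (s.E S a b x) y = inner ℝ x (s.E S b a y) := by
  simp only [E, LinearMap.sum_apply, sum_inner, inner_sum, s.adj]

theorem symm_L (k : P) : (s.L k).IsSymmetric := by
  intro x y
  rw [s.L_eq k]
  simp only [LinearMap.sum_apply, sum_inner, inner_sum, Module.End.mul_apply]
  rw [Finset.sum_comm]
  refine Finset.sum_congr rfl fun a _ => Finset.sum_congr rfl fun b _ => ?_
  rw [s.adj_E, s.adj]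
  have h := (s.commute_E_e (S := lt k) (k := k) (fun h => lt_irrefl _ (mem_lt.1 h)) a b b a).eq
  exact congrArg (inner ℝ x) (LinearMap.congr_fun h y).symm

theorem bracket (S : Finset P) (a b c f : Fin d) :
    s.E S a b * s.E S c f - s.E S c f * s.E S a b =
      (if b = c then s.E S a f else 0) - (if f = a then s.E S c b else 0) := by
  induction S using Finset.induction_on with
  | empty => simp [E]
  | insert k S hk ih =>
    have h0 : ∀ a b, s.E (insert k S) a b = s.e k a b + s.E S a b := fun a b =>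
      Finset.sum_insert hk
    have h1 := (s.commute_E_e hk a b c f).eq
    have h2 := (s.commute_E_e hk c f a b).eq
    have h3 := s.mul k a b c f
    have h4 := s.mul k c f a b
    simp only [h0, mul_add, add_mul]
    rw [h1, h2, h3, h4]
    have h5 : s.E S a b * s.E S c f = (if b = c then s.E S a f else 0) -
      (if f = a then s.E S c b else 0) + s.E S c f * s.E S a b := by rw [← ih]; abel
    rw [h5]
    split_ifs <;> abel

/-- `w` is killed by the raising operators and has weight `μ`. -/
structure High (S : Finset P) (μ : Fin d → ℝ) (w : W) : Prop where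
  up : ∀ a b, a < b → s.E S a b w = 0
  wt : ∀ a, s.E S a a w = μ a • w

theorem High.dom {S : Finset P} {μ : Fin d → ℝ} {w : W} (h : s.High S μ w) (hw : w ≠ 0)
    {a b : Fin d} (hab : a < b) : μ b ≤ μ a := by
  have h1 := LinearMap.congr_fun (s.bracket S a b b a) w
  simp only [if_true, LinearMap.sub_apply, Module.End.mul_apply, h.up a b hab, map_zero, sub_zero,
    h.wt] at h1
  have h2 : inner ℝ (s.E S b a w) (s.E S b a w) = (μ a - μ b) * inner ℝ w w := by
    rw [s.adj_E, h1, ← sub_smul, inner_smul_right]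
  have h3 : 0 ≤ (μ a - μ b) * inner ℝ w w := h2 ▸ real_inner_self_nonneg
  have h4 : 0 < inner ℝ w w := real_inner_self_pos.2 hw
  have h5 := nonneg_of_mul_nonneg_left h3 h4
  linarith

end Sys

end Vale.Agent.P261Z.JM
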